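import Mathlib
import Vale.Agent.P069.Defs
import Vale.Agent.P069.AMUC
import Vale.Agent.P069.NoAUC
import Vale.Agent.P069.Reflexive

/-!
A separable reflexive Banach space with an equivalent AMUC norm and no equivalent AUC norm.

The space is the quotient of absolutely summable families over atoms `∑ c_S 1_S`, where the `S`
are pairwise disjoint segments of the forest having one countably branching tree of height `n`
for each `n`, and `∑ c_S ^ 2 ≤ 1`.
-/

namespace Vale.Agent.Results.P069.Disproof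

open Vale.Agent.P069

/-- Some reflexive AMUC renormable space is not AUC renormable. -/
theorem result :
    ∃ (E : Type) (_ : NormedAddCommGroup E) (_ : NormedSpace ℝ E),
      CompleteSpace E ∧ ¬ FiniteDimensional ℝ E ∧ TopologicalSpace.SeparableSpace E ∧
      Function.Surjective (NormedSpace.inclusionInDoubleDual ℝ E) ∧
      (∃ N : E → ℝ, IsEquivalentNorm N ∧ IsAMUC N) ∧
      ¬ ∃ N : E → ℝ, IsEquivalentNorm N ∧ IsAUC N := by
  refine ⟨X, inferInstance, inferInstance, inferInstance, not_finiteDimensional, separableSpace,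
    surjective_inclusion, ⟨fun x => ‖x‖, ?_, ?_⟩, ?_⟩
  · exact ⟨norm_add_le, fun a x => by simp [norm_smul], 1, 1, one_pos, fun x => by simp⟩
  · intro t ht
    obtain ⟨δ, hδ, h⟩ := amuc_estimate ht
    refine lt_of_lt_of_le (EReal.coe_pos.2 hδ) (le_iInf₂ fun x hx => ?_)
    obtain ⟨F, hFc, hFf, hF⟩ := h x hx
    exact le_iSup₂_of_le F ⟨hFc, hFf⟩
      (le_iInf₂ fun y hy => EReal.coe_le_coe_iff.2 (hF y hy.1 hy.2))
  · rintro ⟨N, ⟨hadd, hsmul, c, C, hc, hN⟩, hauc⟩
    refine no_auc N hadd hsmul hc hN fun t ht => ?_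
    obtain ⟨δ, hδ0, hδ⟩ := EReal.lt_iff_exists_real_btwn.1 (hauc t ht)
    refine ⟨δ, EReal.coe_pos.1 hδ0, fun x hx => ?_⟩
    have h2 := lt_of_lt_of_le hδ (iInf₂_le (α := EReal) x hx)
    simp only [lt_iSup_iff] at h2
    obtain ⟨F, hF, h3⟩ := h2
    refine ⟨F, hF.1, hF.2, fun y hy hy1 => ?_⟩
    exact EReal.coe_le_coe_iff.1 (le_trans h3.le (iInf₂_le (α := EReal) y ⟨hy, hy1⟩))

end Vale.Agent.Results.P069.Disproof
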